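import Vale.Agent.P271.H783.Cen
import Vale.Agent.P271.H244.Near
import Vale.Agent.P271.Inst.Lift

/-!
# P271 / K3OUT : CEN from the global generation of multiplier ideals (helper783)
-/

namespace Vale.Agent.P271.K3

open Filter Topology Finsupp Vale.Agent.P271.Sch Vale.Agent.P271.Inst Vale.Agent.P271.Zorn
  Vale.Agent.P271.Exp Vale.Agent.P271.H741 Vale.Agent.P271.H244 Vale.Agent.P271.H84
  Vale.Agent.P271.Main

variable {n : ℕ} {C : GCone n}

/-- **[CEN]** holds for the exponent sets of 570. -/
theorem cenStat (hG : GlobGen) (hn : 1 ≤ n) {S : CSys C} (hD : ∀ x, (S.D x).P = gP C x) :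
    CenStat S := by
  intro z v β hv
  obtain ⟨c⟩ := nonempty_chart z.2
  filter_upwards [cen_cone hG hn z.2 c (D := S.D z) (hD z) hv] with y hy hyN hy0 k hk
  rw [hD] at hk
  exact hy hy0 k hk

/-- **[CEN]** for every system of exponent sets of the cone. -/
theorem cenStat' (hG : GlobGen) (hn : 1 ≤ n) (S : CSys C) : CenStat S :=
  cenStat hG hn fun x => S.P_ES x

end Vale.Agent.P271.K3
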