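import Vale.Agent.P271.H84.OfSat
import Vale.Agent.P271.Main.CSys

/-!
# P271 / K3OUT : CEN in the language of exponent systems (helper783)

At the points `y` near `z` of the centre of a saturated weight function `v` the valuation of the
ring attached to `v` has threshold at most `β` on the homogeneous elements.
-/

namespace Vale.Agent.P271.K3

open Filter Topology Finsupp Vale.Agent.P271.Sch Vale.Agent.P271.Inst Vale.Agent.P271.Zorn
  Vale.Agent.P271.Exp Vale.Agent.P271.H84 Vale.Agent.P271.Main

/-- A bound of the threshold on the submonoid bounds the threshold on the ring. -/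
theorem slopeLe_extP {R : Type*} [CommRing R] {H : Submonoid R} {P : Set (H →₀ ℝ)} {v : H → ℝ}
    {w : R → ℝ} (hw : ∀ f : H, w (f : R) = v f) {c : ℝ}
    (h : ∀ k ∈ P, (∀ f, 0 ≤ k f) → pair k v ≤ c) (G : R → Prop) :
    SlopeLe (extP H P) G w c := by
  intro k hk hk0 _
  obtain ⟨k', hk', rfl⟩ := mem_extP_iff.1 hk
  have h1 : ∀ f : H, 0 ≤ k' f := by
    intro f
    have h2 : (k'.mapDomain fun h : H => (h : R)) (f : R) = k' f :=
      Finsupp.mapDomain_apply Subtype.val_injective k' f
    rw [← h2]
    exact hk0 _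
  have h2 := h k' hk' h1
  rw [dot_mapDomain]
  have h3 : dot k' (fun f : H => w (f : R)) = pair k' v := by
    rw [pair_eq_sum]
    exact dot_congr fun f _ => hw f
  rw [h3]
  exact h2

variable {n : ℕ} {C : GCone n}

/-- The threshold of `v` at the point `z`, in the language of the ring. -/
theorem slopeLe_of_sat {D : Dat (HM C)} {v : HM C → ℝ} {β : ℝ} (hv : D.Sat v β)
    (h : HVal C.A (vR v)) (G : C.R → Prop) : SlopeLe (extP (HM C) D.P) G h.ext β :=
  slopeLe_extP (ext_coe h) hv.le G

/-- **[CEN]** for the exponent sets of a cone: at the points `y` near `z` where all the elements of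
positive value vanish, the threshold of a saturated weight function is at most `β`. -/
def CenStat (S : CSys C) : Prop :=
  ∀ (z : NVPt C) (v : HM C → ℝ) (β : ℝ), (S.D z).Sat v β →
    ∀ᶠ y in 𝓝 z.1, ∀ hy : GCone.NV y, (∀ f : HM C, 0 < v f → y (f : C.R) = 0) →
      ∀ k ∈ (S.D ⟨y, hy⟩).P, (∀ f, 0 ≤ k f) → pair k v ≤ β

/-- **CEN** for the valuation of the ring attached to a saturated weight function: at all points `y`
near `z` of its centre the threshold is at most `β`. -/
theorem cen_sys {S : CSys C} (hS : CenStat S) (z : NVPt C) {v : HM C → ℝ} {β : ℝ}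
    (hv : (S.D z).Sat v β) (h : HVal C.A (vR v)) :
    ∀ᶠ y in 𝓝 z.1, h.rval.P ≤ RingHom.ker y → ∀ hy : GCone.NV y,
      SlopeLe (S.E.P ⟨y, hy⟩) (HmOf (HM C)) h.ext β := by
  filter_upwards [hS z v β hv] with y hy hP hyN
  rw [S.P_eq]
  exact slopeLe_extP (ext_coe h) (hy hyN fun f hf => hP ((mem_P_coe h f).2 hf)) _

end Vale.Agent.P271.K3
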