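import Vale.Agent.P271.H783.GenPt
import Vale.Agent.P271.H783.Cen

/-!
# P271 / K3OUT : the final form for the exponent sets of a cone (helper783)

`K3Fin S z m1 r1` is the form of (K3) which is used by the field `k3w` (helper507).
-/

set_option linter.all false

open Finset Module Filter Topology

namespace Vale.Agent.P271.K3

open Vale.Agent.P271.Filt Vale.Agent.P271.Filt.Wt Vale.Agent.P271.Exp
  Vale.Agent.P271.Sch Vale.Agent.P271.Inst Vale.Agent.P271.H84 Vale.Agent.P271.H207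
  Vale.Agent.P271.Chain Vale.Agent.P271.Main Vale.Agent.P271.Deg
open Vale.Agent.P271.Drop (hilb)

variable {n : ℕ} {C : GCone n}

/-- All values of the valuation on the graded pieces of degree `≤ m`. -/
theorem exists_values {w : C.R → ℝ} (h : RVal w) [∀ M, FiniteDimensional ℂ (C.A M)] (m : ℕ) :
    ∃ s : Finset ℝ, ∀ M ≤ m, ∀ x ∈ C.A M, x ≠ 0 → w x ∈ (s : Set ℝ) := by
  classical
  refine ⟨(Finset.range (m + 1)).biUnion fun M => ((h.wt (C.A M)).finite_values).toFinset,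
    fun M hM x hx hx0 => ?_⟩
  rw [Finset.mem_coe, Finset.mem_biUnion]
  refine ⟨M, Finset.mem_range.2 (Nat.lt_succ_of_le hM), ?_⟩
  rw [Set.Finite.mem_toFinset]
  exact ⟨⟨x, hx⟩, fun h0 => hx0 (congrArg Subtype.val h0), rfl⟩

/-- **(K3)**: for every level `T` and every saturated weight function `v` of threshold `c` whose
centre is not the prime of the orbit of `z`, there is a refinement of `v` by orders `e i` with the
upper bound `α c + d` for the threshold, and all the counting inequalities. -/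
theorem k3Fin (S : CSys C) (hcen : CenStat S) (z : NVPt C) {m1 : ℕ} (hm1 : 1 ≤ m1)
    [∀ k, FiniteDimensional ℂ (C.A k)] :
    ∃ r0 : ℕ, ∀ r1 : ℕ, r0 ≤ r1 → ∀ (T : ℕ) (v : HM C → ℝ) (c : ℝ), (S.D z).Sat v c →
      (∀ f : HM C, z.1 (f : C.R) ≠ 0 → v f = 0) → ∀ hv : HVal C.A (vR v),
      ∀ d : ℕ, 1 ≤ d → d ≤ n → (∃ D, 1 ≤ D ∧ TwoSided d D (hilb (VA C m1) hv.rval.P)) →
      ∃ (b : Basis (Fin (finrank ℂ (VA C m1 T))) ℂ (VA C m1 T))
        (e : Fin (finrank ℂ (VA C m1 T)) → ℝ) (α₁ : ℝ),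
        (hv.rval.wt (VA C m1 T)).Adapted b ∧ (∀ i, 0 ≤ e i) ∧
        (∀ α, α₁ ≤ α → Dom (Hz C z.1 m1 T) (ofBasis b fun i => α * hv.ext (b i) + e i) ∧
          S.a z m1 T (ofBasis b fun i => α * hv.ext (b i) + e i) ≤ α * c + d) ∧
        ∀ (t : ℝ) (s k : ℕ), k * (s + r1) ≤ T →
          (d : ℝ) * ((d.factorial : ℝ) ^ ((1 : ℝ) / d)) *
            ((hilb (VA C m1) hv.rval.P s : ℝ) ^ ((1 : ℝ) / d)) *
            ∑ j ∈ range k, ((finrank ℂ (VA C m1 (T - (j + 1) * (s + r1))) : ℝ) -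
              finrank ℂ ((hv.rval.wt (VA C m1 (T - (j + 1) * (s + r1)))).sub t)) -
            (d + 1) * ((finrank ℂ (VA C m1 T) : ℝ) -
              finrank ℂ ((hv.rval.wt (VA C m1 T)).sub t)) ≤
            ∑ i, if hv.ext (b i) < t then e i else 0 := by
  classical
  obtain ⟨r0, hr0⟩ := exists_genPt783 C n
  refine ⟨r0, fun r1 hr1 T v c hsat hz hv d hd hdn hTS => ?_⟩
  have hzP : hv.rval.P ≤ RingHom.ker z.1 := P_le_ker hv hz
  obtain ⟨D, hD, hTS⟩ := hTS
  obtain ⟨s, hs⟩ := exists_values (C := C) hv.rval (m1 * T)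
  have hgen : GenPt C hv.rval (s : Set ℝ) d (m1 * r1) :=
    hr0 (vR v) hv z.1 z.2 hzP d hdn ⟨m1, hm1, D, hD, hTS⟩ s (m1 * r1)
      (hr1.trans (Nat.le_mul_of_pos_left _ hm1))
  have hc : ∀ᶠ χ in 𝓝 z.1, ∀ hχ : GCone.NV χ, hv.rval.P ≤ RingHom.ker χ →
      SlopeLe (S.E.P ⟨χ, hχ⟩) (HmOf (HM C)) hv.ext c := by
    filter_upwards [cen_sys hcen z hsat hv] with χ h1 h2 h3
    exact h1 h3 h2
  obtain ⟨b, e, α₁, hα₁, hb, heE, hanti, hvsl, hdom, hcount⟩ :=
    out S.E S.ev_eq z.2 hv hzP hc hd (m := m1 * T) (Em := finrank ℂ (C.A (m1 * T))) le_rfl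
      hs hgen
  refine ⟨b, fun i => (e i : ℝ), α₁, hb, fun i => Nat.cast_nonneg _, fun α hα => ?_, ?_⟩
  · have h1 := hdom α hα
    have h2 := S.Hz_eq z m1 T
    rw [← h2]
    exact h1
  · intro t s' k hk
    have h1 : k * (m1 * s' + m1 * r1) ≤ m1 * T := by
      calc k * (m1 * s' + m1 * r1) = m1 * (k * (s' + r1)) := by ring
        _ ≤ m1 * T := Nat.mul_le_mul_left _ hk
    have h2 := hcount t (m1 * s') k h1
    have h3 : ∀ i : ℕ, m1 * T - (i + 1) * (m1 * s' + m1 * r1) =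
        m1 * (T - (i + 1) * (s' + r1)) := by
      intro i
      rw [Nat.mul_sub]
      congr 1
      ring
    simp only [h3] at h2
    exact h2

end Vale.Agent.P271.K3
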