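import Vale.Agent.P271.Filt.Limit
import Vale.Agent.P271.Filt.Lex

/-!
# P271 / K3T : abstract theory of integrability exponents of weighted families (helper783)

`ExpTheory R X` is the interface between the local analysis (exponents
`c_x(b; l) = sup {c : exp (-2c max_i (1/l_i) log|b_i|) integrable at x}`) and the algebra.
`Θ.bd x b l w` is the ideal of all `f` with `|f| ≤ C exp (-t w)` near `x` on
`{|b_i| ≤ exp (-t l_i)}`, uniformly in `t ≥ 0`.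
-/

namespace Vale.Agent.P271.K3

open Module Filter Topology
open scoped ENNReal

/-- Abstract theory of exponents of weighted families of elements of `R` at the points of `X`.
Members of weight zero are ignored. -/
structure ExpTheory (R : Type*) [CommRing R] [Algebra ℂ R] (X : Type*) [TopologicalSpace X] where
  /-- evaluation -/
  ev : X → R →ₐ[ℂ] ℂ
  cont : ∀ f : R, Continuous fun x => ev x f
  /-- the exponent of the family `b` with weights `l` at `x` -/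
  c : X → ∀ {ι : Type} [Fintype ι], (ι → R) → (ι → ℝ) → ℝ≥0∞
  /-- comparison -/
  comp : ∀ (x : X) {ι κ : Type} [Fintype ι] [Fintype κ] (b : ι → R) (l : ι → ℝ) (b' : κ → R)
    (l' : κ → ℝ), (∀ i, 0 ≤ l i) → (∀ j, 0 ≤ l' j) →
    (∃ C : ℝ, ∀ᶠ y in 𝓝 x, ∀ t : ℝ, 0 ≤ t →
      (∀ i, 0 < l i → ‖ev y (b i)‖ ≤ Real.exp (-(t * l i))) →
      ∀ j, 0 < l' j → ‖ev y (b' j)‖ ≤ C * Real.exp (-(t * l' j))) → c x b' l' ≤ c x b l
  /-- Fact 1 (convexity along geodesics) -/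
  fact1 : ∀ (x : X) {ι : Type} [Fintype ι] (b : ι → R) (l m : ι → ℝ) (s : ℝ),
    (∀ i, 0 ≤ l i) → (∀ i, 0 ≤ m i) → 0 ≤ s →
    c x b (fun i => s * l i + m i) ≤ ENNReal.ofReal s * c x b l + c x b m
  /-- no constraint: exponent zero -/
  zero : ∀ (x : X) {ι : Type} [Fintype ι] (b : ι → R), c x b (fun _ => 0) = 0
  /-- a single function vanishing at `x` has exponent at most one -/
  single : ∀ (x : X) (f : R), ev x f = 0 → c x (fun _ : Unit => f) (fun _ => 1) ≤ 1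
  /-- Fact 2 (lower semicontinuity in the point and in the family) -/
  lsc : ∀ {ι : Type} [Fintype ι] (V : Submodule ℂ R) [FiniteDimensional ℂ V]
    (b : ℕ → ι → V) (b' : ι → V) (x : ℕ → X) (x' : X) (l : ι → ℝ), (∀ i, 0 ≤ l i) →
    (∀ (f : V →ₗ[ℂ] ℂ) i, Tendsto (fun n => f (b n i)) atTop (𝓝 (f (b' i)))) →
    Tendsto x atTop (𝓝 x') →
    c x' (fun i => (b' i : R)) l ≤ liminf (fun n => c (x n) (fun i => (b n i : R)) l) atTop

namespace ExpTheory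

variable {R : Type*} [CommRing R] [Algebra ℂ R] {X : Type*} [TopologicalSpace X]
  (Θ : ExpTheory R X)

/-- the ideal of all `f` with `|f| ≤ C exp (-t w)` near `x` on `{|b_i| ≤ exp (-t l_i)}` -/
def bd (x : X) {ι : Type} (b : ι → R) (l : ι → ℝ) (w : ℝ) : Ideal R where
  carrier := {f | ∃ C : ℝ, 0 ≤ C ∧ ∀ᶠ y in 𝓝 x, ∀ t : ℝ, 0 ≤ t →
    (∀ i, 0 < l i → ‖Θ.ev y (b i)‖ ≤ Real.exp (-(t * l i))) → ‖Θ.ev y f‖ ≤ C * Real.exp (-(t * w))}
  zero_mem' := ⟨0, le_rfl, Eventually.of_forall fun y t _ _ => by simp⟩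
  add_mem' := by
    rintro f g ⟨C, hC, hf⟩ ⟨D, hD, hg⟩
    refine ⟨C + D, by positivity, ?_⟩
    filter_upwards [hf, hg] with y h1 h2 t ht hb
    rw [map_add, add_mul]
    exact (norm_add_le _ _).trans (add_le_add (h1 t ht hb) (h2 t ht hb))
  smul_mem' := by
    rintro r f ⟨C, hC, hf⟩
    have hr : ∀ᶠ y in 𝓝 x, ‖Θ.ev y r‖ < ‖Θ.ev x r‖ + 1 :=
      ((Θ.cont r).norm.tendsto x).eventually_lt_const (by linarith)
    refine ⟨(‖Θ.ev x r‖ + 1) * C, by positivity, ?_⟩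
    filter_upwards [hf, hr] with y h1 h2 t ht hb
    rw [smul_eq_mul, map_mul, norm_mul, mul_assoc]
    exact mul_le_mul h2.le (h1 t ht hb) (norm_nonneg _) (by positivity)

variable {Θ} {x : X} {ι : Type} {b : ι → R} {l : ι → ℝ} {w w' : ℝ} {f g : R}

theorem mem_bd : f ∈ Θ.bd x b l w ↔ ∃ C : ℝ, 0 ≤ C ∧ ∀ᶠ y in 𝓝 x, ∀ t : ℝ, 0 ≤ t →
    (∀ i, 0 < l i → ‖Θ.ev y (b i)‖ ≤ Real.exp (-(t * l i))) →
    ‖Θ.ev y f‖ ≤ C * Real.exp (-(t * w)) := Iff.rfl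

theorem bd_antitone (h : w ≤ w') : Θ.bd x b l w' ≤ Θ.bd x b l w := by
  rintro f ⟨C, hC, hf⟩
  refine ⟨C, hC, ?_⟩
  filter_upwards [hf] with y h1 t ht hb
  refine (h1 t ht hb).trans (mul_le_mul_of_nonneg_left ?_ hC)
  exact Real.exp_le_exp.2 (neg_le_neg (mul_le_mul_of_nonneg_left h ht))

theorem mul_mem_bd (hf : f ∈ Θ.bd x b l w) (hg : g ∈ Θ.bd x b l w') :
    f * g ∈ Θ.bd x b l (w + w') := by
  obtain ⟨C, hC, hf⟩ := hf
  obtain ⟨D, hD, hg⟩ := hg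
  refine ⟨C * D, by positivity, ?_⟩
  filter_upwards [hf, hg] with y h1 h2 t ht hb
  rw [map_mul, norm_mul]
  calc ‖Θ.ev y f‖ * ‖Θ.ev y g‖ ≤ (C * Real.exp (-(t * w))) * (D * Real.exp (-(t * w'))) :=
        mul_le_mul (h1 t ht hb) (h2 t ht hb) (norm_nonneg _) (by positivity)
    _ = C * D * Real.exp (-(t * (w + w'))) := by
        rw [show -(t * (w + w')) = -(t * w) + -(t * w') by ring, Real.exp_add]; ring

theorem bd_mul_le : Θ.bd x b l w * Θ.bd x b l w' ≤ Θ.bd x b l (w + w') :=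
  Ideal.mul_le.2 fun _ hf _ hg => mul_mem_bd hf hg

theorem mem_bd_zero (f : R) : f ∈ Θ.bd x b l 0 := by
  have hr : ∀ᶠ y in 𝓝 x, ‖Θ.ev y f‖ < ‖Θ.ev x f‖ + 1 :=
    ((Θ.cont f).norm.tendsto x).eventually_lt_const (by linarith)
  refine ⟨‖Θ.ev x f‖ + 1, by positivity, ?_⟩
  filter_upwards [hr] with y h2 t ht hb
  simpa using h2.le

theorem self_mem_bd (i : ι) (hi : 0 ≤ l i) : b i ∈ Θ.bd x b l (l i) := by
  rcases hi.eq_or_lt with h0 | h0
  · rw [← h0]; exact mem_bd_zero _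
  · refine ⟨1, zero_le_one, Eventually.of_forall fun y t _ hb => ?_⟩
    rw [one_mul]
    exact hb i h0

theorem pow_bd_le (n : ℕ) : (Θ.bd x b l 1) ^ n ≤ Θ.bd x b l n := by
  induction n with
  | zero =>
    intro f _
    simpa using mem_bd_zero (Θ := Θ) (x := x) (b := b) (l := l) f
  | succ n ih =>
    rw [pow_succ]
    refine (Ideal.mul_mono_left ih).trans ?_
    have := bd_mul_le (Θ := Θ) (x := x) (b := b) (l := l) (w := (n : ℝ)) (w' := 1)
    simpa using this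

/-- division by a function that does not vanish at `x` -/
theorem mem_bd_of_mul {u : R} (hu : Θ.ev x u ≠ 0) (h : u * f ∈ Θ.bd x b l w) :
    f ∈ Θ.bd x b l w := by
  obtain ⟨C, hC, h⟩ := h
  have hpos : 0 < ‖Θ.ev x u‖ := norm_pos_iff.2 hu
  have hr : ∀ᶠ y in 𝓝 x, ‖Θ.ev x u‖ / 2 < ‖Θ.ev y u‖ :=
    ((Θ.cont u).norm.tendsto x).eventually_const_lt (by linarith)
  refine ⟨2 / ‖Θ.ev x u‖ * C, by positivity, ?_⟩
  filter_upwards [h, hr] with y h1 h2 t ht hb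
  have h3 := h1 t ht hb
  rw [map_mul, norm_mul] at h3
  have h4 : ‖Θ.ev x u‖ / 2 * ‖Θ.ev y f‖ ≤ C * Real.exp (-(t * w)) :=
    (mul_le_mul_of_nonneg_right h2.le (norm_nonneg _)).trans h3
  rw [mul_assoc]
  calc ‖Θ.ev y f‖ = 2 / ‖Θ.ev x u‖ * (‖Θ.ev x u‖ / 2 * ‖Θ.ev y f‖) := by
        field_simp
    _ ≤ 2 / ‖Θ.ev x u‖ * (C * Real.exp (-(t * w))) := mul_le_mul_of_nonneg_left h4 (by positivity)

/-- comparison through `bd` -/
theorem c_le_of_bd {ι κ : Type} [Fintype ι] [Fintype κ] {b : ι → R} {l : ι → ℝ} {b' : κ → R}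
    {l' : κ → ℝ} (hl : ∀ i, 0 ≤ l i) (hl' : ∀ j, 0 ≤ l' j)
    (h : ∀ j, 0 < l' j → b' j ∈ Θ.bd x b l (l' j)) : Θ.c x b' l' ≤ Θ.c x b l := by
  classical
  have h' : ∀ j, ∃ C : ℝ, 0 ≤ C ∧ ∀ᶠ y in 𝓝 x, ∀ t : ℝ, 0 ≤ t →
      (∀ i, 0 < l i → ‖Θ.ev y (b i)‖ ≤ Real.exp (-(t * l i))) → 0 < l' j →
      ‖Θ.ev y (b' j)‖ ≤ C * Real.exp (-(t * l' j)) := by
    intro j
    by_cases hj : 0 < l' j
    · obtain ⟨C, hC, hj'⟩ := h j hj
      exact ⟨C, hC, hj'.mono fun y h1 t ht hb _ => h1 t ht hb⟩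
    · exact ⟨0, le_rfl, Eventually.of_forall fun y t _ _ h => absurd h hj⟩
  choose C hC hCj using h'
  refine Θ.comp x b l b' l' hl hl' ⟨∑ j, C j, ?_⟩
  filter_upwards [eventually_all.2 hCj] with y h1 t ht hb j hj
  refine (h1 j t ht hb hj).trans (mul_le_mul_of_nonneg_right ?_ (Real.exp_pos _).le)
  exact Finset.single_le_sum (fun i _ => hC i) (Finset.mem_univ j)

theorem c_mono_wt {ι : Type} [Fintype ι] {b : ι → R} {l l' : ι → ℝ} (hl : ∀ i, 0 ≤ l i)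
    (h : ∀ i, l i ≤ l' i) : Θ.c x b l ≤ Θ.c x b l' :=
  c_le_of_bd (fun i => (hl i).trans (h i)) hl fun j _ =>
    bd_antitone (h j) (self_mem_bd j ((hl j).trans (h j)))

theorem c_reindex_le {ι κ : Type} [Fintype ι] [Fintype κ] {b : ι → R} {l : ι → ℝ}
    (hl : ∀ i, 0 ≤ l i) (e : κ → ι) : Θ.c x (b ∘ e) (l ∘ e) ≤ Θ.c x b l :=
  c_le_of_bd hl (fun _ => hl _) fun j _ => self_mem_bd (e j) (hl _)

/-- Fact 1 for a finite sum of weights. -/
theorem c_sum_le {ι κ : Type} [Fintype ι] {b : ι → R} (s : Finset κ) (l : κ → ι → ℝ)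
    (hl : ∀ k i, 0 ≤ l k i) :
    Θ.c x b (fun i => ∑ k ∈ s, l k i) ≤ ∑ k ∈ s, Θ.c x b (l k) := by
  classical
  induction s using Finset.induction_on with
  | empty => simp [Θ.zero x b]
  | insert a s ha ih =>
    rw [Finset.sum_insert ha]
    have h1 := Θ.fact1 x b (l a) (fun i => ∑ k ∈ s, l k i) 1 (hl a)
      (fun i => Finset.sum_nonneg fun k _ => hl k i) zero_le_one
    simp only [ENNReal.ofReal_one, one_mul] at h1
    have h2 : (fun i => ∑ k ∈ insert a s, l k i) = fun i => l a i + ∑ k ∈ s, l k i := by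
      funext i; rw [Finset.sum_insert ha]
    rw [h2]
    exact h1.trans (add_le_add le_rfl ih)

end ExpTheory

end Vale.Agent.P271.K3
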