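import Vale.Agent.P271.H783.KP
import Vale.Agent.P271.Filt.Limit

/-!
# P271 / K3T: thresholds of filtrations, limits along sequences of points

`WLe D G c`: the threshold of the filtration `G` of the graded piece `C.A m` at the point with
exponent sets `D` is at most `c`.  A sequence of filtrations with weights in one finite set and
thresholds `≤ c` at points converging to `z` has a limit with threshold `≤ c` at `z`.
-/

set_option linter.all false

open Filter Topology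

namespace Vale.Agent.P271.K3

open Module Vale.Agent.P271.Zorn Vale.Agent.P271.Sch Vale.Agent.P271.Inst Vale.Agent.P271.H84
  Vale.Agent.P271.Filt Vale.Agent.P271.Filt.Wt Finsupp

variable {n : ℕ} {C : GCone n} {m : ℕ}

/-- a nonzero element of a graded piece as an element of `HM C` -/
def hm (x : C.A m) (hx : x ≠ 0) : HM C :=
  ⟨x, mem_HM.2 ⟨fun h0 => hx (Subtype.ext h0), m, x.2⟩⟩

theorem coe_hm (x : C.A m) (hx : x ≠ 0) : (hm x hx : C.R) = x := rfl

theorem hm_injective {x y : C.A m} {hx : x ≠ 0} {hy : y ≠ 0} (h : hm x hx = hm y hy) : x = y :=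
  Subtype.ext (congrArg (fun f : HM C => (f : C.R)) h)

theorem exists_hm {f : HM C} (hf : (f : C.R) ∈ C.A m) :
    (⟨f, hf⟩ : C.A m) ≠ 0 ∧ ∀ h : (⟨f, hf⟩ : C.A m) ≠ 0, hm ⟨f, hf⟩ h = f := by
  refine ⟨fun h0 => HM.ne f (congrArg Subtype.val h0), fun h => rfl⟩

open Classical in
/-- the weight function on `HM C` given by a filtration of `C.A m` (zero elsewhere) -/
noncomputable def extW (G : Wt ℂ (C.A m)) (f : HM C) : ℝ :=
  if h : (f : C.R) ∈ C.A m then G.w ⟨f, h⟩ else 0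

theorem extW_hm (G : Wt ℂ (C.A m)) (x : C.A m) (hx : x ≠ 0) : extW G (hm x hx) = G.w x := by
  unfold extW
  rw [dif_pos (show (hm x hx : C.R) ∈ C.A m from x.2)]
  rfl

/-- The threshold of the filtration `G` is at most `c`. -/
def WLe (D : Dat (HM C)) (G : Wt ℂ (C.A m)) (c : ℝ) : Prop := D.Le (extW G) c

theorem Le.mono {D : Dat (HM C)} {w w' : HM C → ℝ} {c : ℝ} (h : D.Le w' c)
    (hw : ∀ f, w f ≤ w' f) : D.Le w c :=
  fun k hk hk0 => (pair_mono k hk0 fun f _ => hw f).trans (h k hk hk0)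

theorem WLe.of_le {D : Dat (HM C)} {w : HM C → ℝ} {c : ℝ} (h : D.Le w c) (hw : ∀ f, 0 ≤ w f)
    {G : Wt ℂ (C.A m)} (hG : ∀ x : C.A m, ∀ hx : x ≠ 0, G.w x ≤ w (hm x hx)) : WLe D G c := by
  refine Le.mono h fun f => ?_
  unfold extW
  by_cases hf : (f : C.R) ∈ C.A m
  · rw [dif_pos hf]
    exact hG ⟨f, hf⟩ (exists_hm hf).1
  · rw [dif_neg hf]
    exact hw f

theorem WLe.mono {D : Dat (HM C)} {c : ℝ} {G G' : Wt ℂ (C.A m)} (h : WLe D G' c)
    (hG : ∀ x, x ≠ 0 → G.w x ≤ G'.w x) : WLe D G c := by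
  refine Le.mono h fun f => ?_
  unfold extW
  by_cases hf : (f : C.R) ∈ C.A m
  · rw [dif_pos hf, dif_pos hf]
    exact hG ⟨f, hf⟩ (exists_hm hf).1
  · rw [dif_neg hf, dif_neg hf]

/-- a sum of exponents of elements of `C.A m` -/
noncomputable def ksum {ι : Type} [Fintype ι] (b : ι → C.A m) (hb : ∀ i, b i ≠ 0) (κ : ι → ℝ) :
    HM C →₀ ℝ := ∑ i, single (hm (b i) (hb i)) (κ i)

theorem pair_ksum {ι : Type} [Fintype ι] (b : ι → C.A m) (hb : ∀ i, b i ≠ 0) (κ : ι → ℝ)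
    (w : HM C → ℝ) : pair (ksum b hb κ) w = ∑ i, κ i * w (hm (b i) (hb i)) := by
  classical
  unfold ksum
  have h : ∀ s : Finset ι, pair (∑ i ∈ s, single (hm (b i) (hb i)) (κ i)) w =
      ∑ i ∈ s, κ i * w (hm (b i) (hb i)) := by
    intro s
    induction s using Finset.induction_on with
    | empty => rw [Finset.sum_empty, Finset.sum_empty, pair_zero]
    | insert i s hi ih =>
      rw [Finset.sum_insert hi, Finset.sum_insert hi, pair_add, pair_single, ih]
  exact h _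

theorem ksum_nonneg {ι : Type} [Fintype ι] (b : ι → C.A m) (hb : ∀ i, b i ≠ 0) {κ : ι → ℝ}
    (hκ : ∀ i, 0 ≤ κ i) (f : HM C) : 0 ≤ ksum b hb κ f := by
  classical
  unfold ksum
  rw [Finsupp.finsetSum_apply]
  refine Finset.sum_nonneg fun i _ => ?_
  rw [single_apply]
  split_ifs
  · exact hκ i
  · exact le_rfl

/-- (A9): lower semicontinuity of the exponent sets along a sequence of points. -/
def Lsc (D : ℕ → Dat (HM C)) (D' : Dat (HM C)) (m : ℕ) : Prop :=
  ∀ (ι : Type) [Fintype ι] (b : ℕ → ι → C.A m) (b' : ι → C.A m) (hb : ∀ n i, b n i ≠ 0)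
    (hb' : ∀ i, b' i ≠ 0),
    (∀ (f : C.A m →ₗ[ℂ] ℂ) (i : ι), Tendsto (fun n => f (b n i)) atTop (𝓝 (f (b' i)))) →
    ∀ κ : ι → ℝ, (∀ i, 0 ≤ κ i) → ksum b' hb' κ ∈ D'.P → ∀ θ : ℝ, 0 ≤ θ → θ < 1 →
    ∃ n, ksum (b n) (hb n) (fun i => θ * κ i) ∈ (D n).P

theorem le_of_forall_mul_le {x c : ℝ} (h : ∀ ρ : ℝ, 0 ≤ ρ → ρ < 1 → ρ * x ≤ c) : x ≤ c := by
  have h0 : (0 : ℝ) ≤ c := by simpa using h 0 le_rfl one_pos
  rcases le_or_gt x 0 with hx | hx
  · exact hx.trans h0
  · refine le_of_forall_lt_imp_le_of_dense fun y hy => ?_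
    rcases le_or_gt y 0 with hy0 | hy0
    · exact hy0.trans h0
    · have := h (y / x) (div_nonneg hy0.le hx.le) ((div_lt_one hx).mpr hy)
      rwa [div_mul_cancel₀ _ hx.ne'] at this

/-- The threshold of a filtration is computed on an adapted basis. -/
theorem WLe.of_basis {D : Dat (HM C)} (hS : ∀ f g s : HM C, SumRel f g s → D.Sum f g s)
    {ι : Type} [Fintype ι] (b : Basis ι ℂ (C.A m)) {lam : ι → ℝ} (hlam : ∀ i, 0 ≤ lam i) {c : ℝ}
    (h : ∀ κ : ι → ℝ, (∀ i, 0 ≤ κ i) → ksum b (fun i => b.ne_zero i) κ ∈ D.P →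
      ∑ i, κ i * lam i ≤ c) : WLe D (ofBasis b lam) c := by
  classical
  have hBinj : Function.Injective fun i => hm (b i) (b.ne_zero i) := by
    intro i j hij
    exact b.injective (hm_injective hij)
  let w0 : HM C → ℝ := fun f => if h : ∃ i, hm (b i) (b.ne_zero i) = f then lam h.choose else 0
  have hw0b : ∀ i, w0 (hm (b i) (b.ne_zero i)) = lam i := by
    intro i
    have hex : ∃ j, hm (b j) (b.ne_zero j) = hm (b i) (b.ne_zero i) := ⟨i, rfl⟩
    have h1 : w0 (hm (b i) (b.ne_zero i)) = lam hex.choose := dif_pos hex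
    rw [h1, hBinj hex.choose_spec]
  have hw00 : ∀ f, 0 ≤ w0 f := by
    intro f
    by_cases hex : ∃ j, hm (b j) (b.ne_zero j) = f
    · have h1 : w0 f = lam hex.choose := dif_pos hex
      rw [h1]
      exact hlam _
    · have h1 : w0 f = 0 := dif_neg hex
      rw [h1]
  have hle : D.Le w0 c := by
    intro k hk hk0
    have hkap : ∀ i, 0 ≤ k (hm (b i) (b.ne_zero i)) := fun i => hk0 _
    have hval : ∀ f, ksum b (fun i => b.ne_zero i) (fun i => k (hm (b i) (b.ne_zero i))) f =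
        if ∃ j, hm (b j) (b.ne_zero j) = f then k f else 0 := by
      intro f
      unfold ksum
      rw [Finsupp.finsetSum_apply]
      by_cases hex : ∃ j, hm (b j) (b.ne_zero j) = f
      · obtain ⟨j, rfl⟩ := hex
        rw [if_pos ⟨j, rfl⟩, Finset.sum_eq_single j]
        · rw [single_eq_same]
        · intro i _ hij
          rw [single_apply, if_neg fun h => hij (hBinj h)]
        · intro h
          exact absurd (Finset.mem_univ j) h
      · rw [if_neg hex]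
        refine Finset.sum_eq_zero fun i _ => ?_
        rw [single_apply, if_neg fun h => hex ⟨i, h⟩]
    have hmem : ksum b (fun i => b.ne_zero i) (fun i => k (hm (b i) (b.ne_zero i))) ∈ D.P := by
      refine D.down k hk _ fun f => ?_
      rw [hval f]
      split_ifs
      · exact le_rfl
      · exact hk0 f
    refine le_trans (le_of_eq ?_) (h _ hkap hmem)
    have h2 : ∑ i, k (hm (b i) (b.ne_zero i)) * lam i =
        pair (ksum b (fun i => b.ne_zero i) (fun i => k (hm (b i) (b.ne_zero i)))) w0 := by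
      rw [pair_ksum]
      exact Finset.sum_congr rfl fun i _ => by rw [hw0b]
    rw [h2, pair_eq_sum_of_subset _ w0
      (Finset.subset_union_right (s₁ := k.support)
        (s₂ := (ksum b (fun i => b.ne_zero i) (fun i => k (hm (b i) (b.ne_zero i)))).support)),
      pair_eq_sum_of_subset k w0 (Finset.subset_union_left (s₁ := k.support)
        (s₂ := (ksum b (fun i => b.ne_zero i) (fun i => k (hm (b i) (b.ne_zero i)))).support))]
    refine Finset.sum_congr rfl fun f _ => ?_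
    rw [hval f]
    by_cases hex : ∃ j, hm (b j) (b.ne_zero j) = f
    · rw [if_pos hex]
    · have h1 : w0 f = 0 := dif_neg hex
      rw [h1, mul_zero, mul_zero]
  obtain ⟨v, hv, hsat⟩ := D.exists_sat w0 hw00 hle
  have hW : HVal C.A (vR v) := hval_of_sat hS hsat
  refine WLe.of_le hsat.le hsat.nonneg fun x hx => ?_
  have h1 : (hW.rval.wt (C.A m)).w x = v (hm x hx) := wt_mk hW x hx
  rw [← h1]
  refine le_w_of_forall_basis b hx fun i hi => ?_
  have h2 : (hW.rval.wt (C.A m)).w (b i) = v (hm (b i) (b.ne_zero i)) :=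
    wt_mk hW (b i) (b.ne_zero i)
  rw [h2]
  refine le_trans ?_ ((hw0b i).ge.trans (hv _))
  exact (le_ofBasis_iff b lam hx).1 le_rfl i hi

theorem WLe.ksum_le {D : Dat (HM C)} {G : Wt ℂ (C.A m)} {c : ℝ} (h : WLe D G c) {ι : Type}
    [Fintype ι] (b : ι → C.A m) (hb : ∀ i, b i ≠ 0) {κ : ι → ℝ} (hκ : ∀ i, 0 ≤ κ i)
    (hmem : ksum b hb κ ∈ D.P) : ∑ i, κ i * G.w (b i) ≤ c := by
  have h1 := h _ hmem (ksum_nonneg b hb hκ)
  rw [pair_ksum] at h1
  refine le_trans (le_of_eq ?_) h1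
  exact Finset.sum_congr rfl fun i _ => by rw [extW_hm]

/-- **Limits of filtrations with bounded thresholds.** -/
theorem exists_limit_WLe [FiniteDimensional ℂ (C.A m)] (D : ℕ → Dat (HM C)) (D' : Dat (HM C))
    (hS : ∀ f g s : HM C, SumRel f g s → D'.Sum f g s)
    (hlsc : ∀ ψ : ℕ → ℕ, StrictMono ψ → Lsc (fun n => D (ψ n)) D' m)
    (G : ℕ → Wt ℂ (C.A m)) (T : Finset ℝ) (hT : ∀ n x, x ≠ 0 → (G n).w x ∈ T)
    (hG0 : ∀ n x, x ≠ 0 → 0 ≤ (G n).w x) {c : ℝ} (hG : ∀ n, WLe (D n) (G n) c) :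
    ∃ (φ : ℕ → ℕ) (b : ℕ → Basis (Fin (finrank ℂ (C.A m))) ℂ (C.A m))
      (b' : Basis (Fin (finrank ℂ (C.A m))) ℂ (C.A m)) (lam : Fin (finrank ℂ (C.A m)) → ℝ),
      StrictMono φ ∧ Antitone lam ∧ (∀ i, 0 ≤ lam i) ∧ (∀ n, (G (φ n)).Adapted (b n)) ∧
      (∀ n i, (G (φ n)).w (b n i) = lam i) ∧
      (∀ (f : C.A m →ₗ[ℂ] ℂ) (i), Tendsto (fun n => f (b n i)) atTop (𝓝 (f (b' i)))) ∧
      (∀ (a : ℝ) (W : Submodule ℂ (C.A m)), (∀ n, (G (φ n)).sub a = W) →
        (ofBasis b' lam).sub a = W) ∧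
      (∀ (n : ℕ) (a : ℝ), (ofBasis b' lam).TQ ((ofBasis b' lam).sub a)
        = (G (φ n)).TQ ((G (φ n)).sub a)) ∧
      WLe D' (ofBasis b' lam) c := by
  obtain ⟨φ, b, b', lam, hφ, hanti, hadp, hw, hlim, -, hstep, -, hTQ⟩ :=
    exists_limit_general G T hT
  have hlam : ∀ i, 0 ≤ lam i := by
    intro i
    rw [← hw 0 i]
    exact hG0 _ _ ((b 0).ne_zero i)
  refine ⟨φ, b, b', lam, hφ, hanti, hlam, hadp, hw, hlim, hstep, hTQ, ?_⟩
  refine WLe.of_basis hS b' hlam fun κ hκ hmem => le_of_forall_mul_le fun θ h0 h1 => ?_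
  obtain ⟨j, hj⟩ := hlsc φ hφ (Fin (finrank ℂ (C.A m))) (fun n i => b n i) (fun i => b' i)
    (fun n i => (b n).ne_zero i) (fun i => b'.ne_zero i) hlim κ hκ hmem θ h0 h1
  have h2 := (hG (φ j)).ksum_le _ _ (fun i => mul_nonneg h0 (hκ i)) hj
  rw [Finset.mul_sum]
  refine le_trans (le_of_eq ?_) h2
  refine Finset.sum_congr rfl fun i _ => ?_
  rw [hw j i]
  ring

end Vale.Agent.P271.K3
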