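import Vale.Agent.P271.H43.Sorted

/-!
# P271 / K3T: the limit of refinements of a fixed filtration

`G k x = α F x + h_k x` with `0 ≤ h_k ≤ E` and `E < α · gap`.  If `G' = ofBasis b' lam` is a limit
of the `G k` (same weights, common steps preserved) then `G'` is again such a refinement: `b'` is
adapted to `F`, `α F(b'_i) ≤ lam i ≤ α F(b'_i) + E`, and the total weights on `V / F.sub t` are the
same.
-/

set_option linter.all false

namespace Vale.Agent.P271.K3

open Module Vale.Agent.P271.Filt Vale.Agent.P271.Filt.Wt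

variable {K : Type*} {V : Type*} [Field K] [AddCommGroup V] [Module K V] [FiniteDimensional K V]

/-- every step of `F` is a step of all the refinements, with a common index -/
theorem exists_index {F : Wt K V} {α E : ℝ} (hα : 0 ≤ α) (hE : 0 ≤ E)
    (hgap : ∀ x y : V, x ≠ 0 → y ≠ 0 → F.w x < F.w y → E < α * (F.w y - F.w x)) (t : ℝ) :
    ∃ a : ℝ, ((∃ x : V, x ≠ 0 ∧ F.w x = t) → a = α * t) ∧
      ∀ G : Wt K V, (∀ x, x ≠ 0 → α * F.w x ≤ G.w x) → (∀ x, x ≠ 0 → G.w x ≤ α * F.w x + E) →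
        G.sub a = F.sub t := by
  classical
  by_cases hex : ∃ x : V, x ∈ F.sub t ∧ x ≠ 0
  · obtain ⟨x0, hx0, hx00⟩ := hex
    obtain ⟨y, hyt, hy0, hmin⟩ := F.exists_min (F.sub t : Set V) ⟨x0, hx0, hx00⟩
    have hty : t ≤ F.w y := hyt hy0
    refine ⟨α * F.w y, ?_, fun G h1 h2 => ?_⟩
    · rintro ⟨x, hx, hxt⟩
      have : F.w y ≤ F.w x := hmin x (show x ∈ F.sub t from fun _ => hxt.ge) hx
      rw [hxt] at this
      rw [le_antisymm this hty]
    · apply le_antisymm
      · intro x hx hx0'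
        have h3 := hx hx0'
        by_contra hlt
        push Not at hlt
        have h4 := hgap x y hx0' hy0 (hlt.trans_le hty)
        have h5 := h2 x hx0'
        nlinarith
      · intro x hx hx0'
        have h3 : F.w y ≤ F.w x := hmin x hx hx0'
        exact (mul_le_mul_of_nonneg_left h3 hα).trans (h1 x hx0')
  · push Not at hex
    obtain ⟨B, hB⟩ := F.finite_values.bddAbove
    refine ⟨α * max B 0 + E + 1, ?_, fun G h1 h2 => ?_⟩
    · rintro ⟨x, hx, hxt⟩
      exact absurd (hex x (fun _ => hxt.ge)) hx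
    · apply le_antisymm
      · intro x hx hx0
        have h3 := hx hx0
        have h4 := h2 x hx0
        have h5 : F.w x ≤ max B 0 := (hB ⟨x, hx0, rfl⟩).trans (le_max_left _ _)
        have h6 := mul_le_mul_of_nonneg_left h5 hα
        linarith
      · intro x hx
        rw [hex x hx]
        exact Submodule.zero_mem _

/-- **The limit of refinements is a refinement.** -/
theorem limit_refine {F : Wt K V} {α E : ℝ} (hα : 0 ≤ α) (hE : 0 ≤ E)
    (hgap : ∀ x y : V, x ≠ 0 → y ≠ 0 → F.w x < F.w y → E < α * (F.w y - F.w x))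
    {ι : Type*} [Fintype ι] (G : ℕ → Wt K V) (hG1 : ∀ k x, x ≠ 0 → α * F.w x ≤ (G k).w x)
    (hG2 : ∀ k x, x ≠ 0 → (G k).w x ≤ α * F.w x + E) (b : ℕ → Basis ι K V) (b' : Basis ι K V)
    (lam : ι → ℝ) (hw : ∀ k i, (G k).w (b k i) = lam i)
    (hstep : ∀ (a : ℝ) (W : Submodule K V), (∀ k, (G k).sub a = W) → (ofBasis b' lam).sub a = W)
    (hTQ : ∀ (k : ℕ) (a : ℝ), (ofBasis b' lam).TQ ((ofBasis b' lam).sub a)
        = (G k).TQ ((G k).sub a)) :
    F.Adapted b' ∧ (∀ i, α * F.w (b' i) ≤ lam i) ∧ (∀ i, lam i ≤ α * F.w (b' i) + E) ∧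
      ∀ k t, (ofBasis b' lam).TQ (F.sub t) = (G k).TQ (F.sub t) := by
  choose a ha1 ha2 using fun t => exists_index (F := F) hα hE hgap t
  have hsub : ∀ t, (ofBasis b' lam).sub (a t) = F.sub t := fun t =>
    hstep (a t) (F.sub t) fun k => ha2 t (G k) (hG1 k) (hG2 k)
  have hb'0 : ∀ i, b' i ≠ 0 := fun i => b'.ne_zero i
  have hmem : ∀ i t, b' i ∈ F.sub t ↔ a t ≤ lam i := by
    intro i t
    rw [← hsub t, (ofBasis b' lam).mem_sub_of_ne (hb'0 i), ofBasis_basis]
  refine ⟨?_, ?_, ?_, ?_⟩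
  · intro x i hi
    have hx : x ≠ 0 := by rintro rfl; simp at hi
    have h1 : x ∈ (ofBasis b' lam).sub (a (F.w x)) := by
      rw [hsub]
      exact F.self_mem_sub x
    have h2 : a (F.w x) ≤ lam i := (le_ofBasis_iff b' lam hx).1 (h1 hx) i hi
    exact ((hmem i _).2 h2) (hb'0 i)
  · intro i
    have h1 : a (F.w (b' i)) ≤ lam i := (hmem i _).1 (F.self_mem_sub _)
    rwa [ha1 _ ⟨b' i, hb'0 i, rfl⟩] at h1
  · intro i
    have h1 := hG2 0 (b 0 i) ((b 0).ne_zero i)
    have h2 := hG1 0 (b 0 i) ((b 0).ne_zero i)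
    rw [hw] at h1 h2
    have h3 : b' i ∈ F.sub (F.w (b 0 i)) := by
      rw [hmem, ha1 _ ⟨b 0 i, (b 0).ne_zero i, rfl⟩]
      exact h2
    have h4 : F.w (b 0 i) ≤ F.w (b' i) := h3 (hb'0 i)
    exact h1.trans (by linarith [mul_le_mul_of_nonneg_left h4 hα])
  · intro k t
    have h1 := hTQ k (a t)
    rwa [hsub t, ha2 t (G k) (hG1 k) (hG2 k)] at h1

/-- the weights of the limit as a refinement of `F` -/
theorem limit_w_le {F : Wt K V} {α E : ℝ} (hα : 0 ≤ α) {ι : Type*} {b' : Basis ι K V}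
    {lam : ι → ℝ} (hF : F.Adapted b') (h1 : ∀ i, α * F.w (b' i) ≤ lam i)
    (h2 : ∀ i, lam i ≤ α * F.w (b' i) + E) {x : V} (hx : x ≠ 0) :
    α * F.w x ≤ (ofBasis b' lam).w x ∧ (ofBasis b' lam).w x ≤ α * F.w x + E := by
  constructor
  · rw [le_ofBasis_iff b' lam hx]
    intro i hi
    exact (mul_le_mul_of_nonneg_left (hF x i hi) hα).trans (h1 i)
  · obtain ⟨i, hi, hxi⟩ := hF.exists_eq hx
    have h3 := (le_ofBasis_iff b' lam hx).1 le_rfl i hi
    rw [hxi]
    exact h3.trans (h2 i)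

end Vale.Agent.P271.K3
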