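import Vale.Agent.P271.H783.KX
import Vale.Agent.P271.H783.KR

/-!
# P271 / K3T: output of the limit `z' → z`

A basis `b` of `C.A m` adapted to `F = v` and `0 ≤ e_i ≤ E` such that the filtration with weights
`α F(b_i) + e_i` has threshold `≤ α c + d` at `z`; the sums of the `e_i` are those of the truncated
refinement at a general point.
-/

set_option linter.all false

open Filter Topology

namespace Vale.Agent.P271.K3

open Module Vale.Agent.P271.Zorn Vale.Agent.P271.Sch Vale.Agent.P271.Inst Vale.Agent.P271.H84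
  Vale.Agent.P271.Filt Vale.Agent.P271.Filt.Wt Vale.Agent.P271.H207 Vale.Agent.P271.F507 Finsupp

variable {n : ℕ} {C : GCone n} {m : ℕ}

open Classical in
theorem k3_out (D' : Dat (HM C)) (hS' : ∀ f g s : HM C, SumRel f g s → D'.Sum f g s)
    (D : ℕ → Dat (HM C)) (hS : ∀ k, ∀ f g s : HM C, SumRel f g s → (D k).Sum f g s)
    (hlsc : ∀ ψ : ℕ → ℕ, StrictMono ψ → Lsc (fun k => D (ψ k)) D' m)
    {v : HM C → ℝ} (hv : HVal C.A (vR v)) {c : ℝ} (hc : ∀ k, (D k).Le v c)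
    [FiniteDimensional ℂ (C.A m)] {d : ℕ} (X : ℕ → Fin d → HM C)
    (Θ : ℕ → GrData (hv.rval.wt (C.A m)) d) (hP : ∀ k, PtData (D k) hv m d (X k) (Θ k))
    {α δ : ℝ} (hα : 0 ≤ α) {E : ℕ}
    (hδ : ∀ f g : HM C, (f : C.R) ∈ C.A m → v f < v g → v f + δ ≤ v g) (hE : (E : ℝ) < α * δ)
    (hs : ∀ k, LexStrict (hv.rval.wt (C.A m)) ((Θ k).hT E) α) :
    ∃ (k : ℕ) (b : Basis (Fin (finrank ℂ (C.A m))) ℂ (C.A m))
      (e : Fin (finrank ℂ (C.A m)) → ℝ),
      (hv.rval.wt (C.A m)).Adapted b ∧ (∀ i, 0 ≤ e i) ∧ (∀ i, e i ≤ E) ∧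
      Antitone (fun i => α * (hv.rval.wt (C.A m)).w (b i) + e i) ∧
      (∀ t, ∑ i with (hv.rval.wt (C.A m)).w (b i) < t, e i =
        ((Θ k).lexT (hs k)).TQ ((hv.rval.wt (C.A m)).sub t) -
          α * (hv.rval.wt (C.A m)).TQ ((hv.rval.wt (C.A m)).sub t)) ∧
      WLe D' (ofBasis b fun i => α * (hv.rval.wt (C.A m)).w (b i) + e i) (α * c + d) := by
  obtain ⟨φ, b, b', lam, hφ, hanti, hlam, hadp, hw, hlim, hstep, hTQ, hle⟩ :=
    k3t D' hS' D hS hlsc hv hc X Θ hP hα hδ hE hs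
  have hgap : ∀ x y : C.A m, x ≠ 0 → y ≠ 0 →
      (hv.rval.wt (C.A m)).w x < (hv.rval.wt (C.A m)).w y →
      (E : ℝ) < α * ((hv.rval.wt (C.A m)).w y - (hv.rval.wt (C.A m)).w x) := by
    intro x y hx hy hlt
    rw [wt_hm hv x hx, wt_hm hv y hy] at hlt ⊢
    have h1 := hδ (hm x hx) (hm y hy) x.2 hlt
    have h2 : α * δ ≤ α * (v (hm y hy) - v (hm x hx)) :=
      mul_le_mul_of_nonneg_left (by linarith) hα
    linarith
  have hE0 : (0 : ℝ) ≤ E := Nat.cast_nonneg _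
  obtain ⟨h1, h2, h3, h4⟩ := limit_refine (F := hv.rval.wt (C.A m)) hα hE0 hgap
    (fun k => (Θ (φ k)).lexT (hs (φ k)))
    (fun k x _ => by
      rw [(Θ (φ k)).lexT_w]
      linarith [(Θ (φ k)).hT_nonneg E x])
    (fun k x _ => by
      rw [(Θ (φ k)).lexT_w]
      linarith [(Θ (φ k)).hT_le E x]) b b' lam hw hstep hTQ
  have hlam' : (fun i => α * (hv.rval.wt (C.A m)).w (b' i) + (lam i - α * (hv.rval.wt (C.A m)).w (b' i))) = lam := by
    funext i
    ring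
  refine ⟨φ 0, b', fun i => lam i - α * (hv.rval.wt (C.A m)).w (b' i), h1, fun i => by linarith [h2 i],
    fun i => by linarith [h3 i], ?_, ?_, ?_⟩
  · rw [hlam']
    exact hanti
  · intro t
    rw [← h4 0 t, TQ_eq_sum (ofBasis_adapted b' lam) (((hv.rval.wt (C.A m)).step_sub t).compat h1),
      TQ_eq_sum h1 (((hv.rval.wt (C.A m)).step_sub t).compat h1), Finset.mul_sum, ← Finset.sum_sub_distrib]
    have h5 : ∀ i, b' i ∉ (hv.rval.wt (C.A m)).sub t ↔ (hv.rval.wt (C.A m)).w (b' i) < t := by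
      intro i
      rw [(hv.rval.wt (C.A m)).mem_sub_of_ne (b'.ne_zero i), not_le]
    refine Finset.sum_congr ?_ fun i _ => by rw [ofBasis_basis]
    ext i
    simp only [Finset.mem_filter, Finset.mem_univ, true_and, h5]
  · rw [hlam']
    exact hle

end Vale.Agent.P271.K3
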