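import Vale.Agent.P271.H783.KU
import Vale.Agent.P271.H84.OfSat

/-!
# P271 / K3T: the upper bound at a general point of a cone

At a point with exponent sets `D`: `v` a valuation of threshold `≤ c` (CEN), `X_i` homogeneous
elements vanishing at the point.  There is a valuation `w` with threshold `≤ α c + d` at the point,
whose value at `s` is at least `α a + N` if `u s ∈ (X)^N b_a + b_{>a}` with a unit `u`.
-/

set_option linter.all false

namespace Vale.Agent.P271.K3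

open Vale.Agent.P271.Zorn Vale.Agent.P271.Sch Vale.Agent.P271.Inst Vale.Agent.P271.H84 Finsupp

section RVal

variable {R : Type*} [CommRing R] [IsDomain R] {v : R → ℝ} (h : RVal v)
include h

theorem mul_mem_b {a b : ℝ} {f g : R} (hf : f ∈ h.b a) (hg : g ∈ h.b b) : f * g ∈ h.b (a + b) := by
  intro h0
  have hf0 : f ≠ 0 := left_ne_zero_of_mul h0
  have hg0 : g ≠ 0 := right_ne_zero_of_mul h0
  rw [h.mul f g hf0 hg0]
  exact add_le_add (hf hf0) (hg hg0)

theorem b_mul_le (a b : ℝ) : h.b a * h.b b ≤ h.b (a + b) :=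
  Ideal.mul_le.2 fun _ hf _ hg => mul_mem_b h hf hg

theorem b_pow_le (a : ℝ) (N : ℕ) : h.b a ^ N ≤ h.b (N * a) := by
  induction N with
  | zero =>
    intro f _ h0
    rw [Nat.cast_zero, zero_mul]
    exact h.nonneg f h0
  | succ N ih =>
    rw [pow_succ]
    refine (Ideal.mul_mono ih le_rfl).trans ((b_mul_le h _ _).trans (h.b_antitone ?_))
    push_cast
    linarith

end RVal

variable {n : ℕ} {C : GCone n}

/-- comparison of the ideals of two valuations -/
theorem b_le_b {v w : HM C → ℝ} (hv : HVal C.A (vR v)) (hw : HVal C.A (vR w)) {α a : ℝ}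
    (hα : 0 ≤ α) (h : ∀ f, α * v f ≤ w f) : hv.rval.b a ≤ hw.rval.b (α * a) := by
  intro f hf
  rw [hw.mem_b_iff]
  intro i hi
  have h1 := hv.mem_b_iff.1 hf i hi
  have hm : cp C.A f i ∈ HM C := mem_HM.2 ⟨hi, i, cp_mem C.A f i⟩
  rw [vR_mem v hm] at h1
  rw [vR_mem w hm]
  exact (mul_le_mul_of_nonneg_left h1 hα).trans (h _)

/-- the gap -/
theorem bgt_le_b {v : HM C → ℝ} (hv : HVal C.A (vR v)) {a δ : ℝ}
    (h : ∀ f, a < v f → a + δ ≤ v f) : hv.rval.bgt a ≤ hv.rval.b (a + δ) := by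
  intro f hf
  rw [hv.mem_b_iff]
  intro i hi
  have h1 := hv.mem_bgt_iff.1 hf i hi
  have hm : cp C.A f i ∈ HM C := mem_HM.2 ⟨hi, i, cp_mem C.A f i⟩
  rw [vR_mem v hm] at h1 ⊢
  exact h _ h1

/-- **The upper bound at a general point.** -/
theorem k3_point {D : Dat (HM C)} (hS : ∀ f g s : HM C, SumRel f g s → D.Sum f g s)
    {v : HM C → ℝ} (hv : HVal C.A (vR v)) {c : ℝ} (hc : D.Le v c) {d : ℕ} (X : Fin d → HM C)
    (hX : ∀ i (κ : ℝ), single (X i) κ ∈ D.P → κ ≤ 1) {α : ℝ} (hα : 0 ≤ α) :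
    ∃ w : HM C → ℝ, D.Sat w (α * c + d) ∧
      ∀ (a δ : ℝ) (N : ℕ) (s u : HM C), (∀ t : ℝ, single u t ∈ D.P) →
        (u * s : C.R) ∈ Ideal.span (Set.range fun i => (X i : C.R)) ^ N * hv.rval.b a ⊔
          hv.rval.bgt a →
        (∀ f, a < v f → a + δ ≤ v f) → (N : ℝ) ≤ α * δ → α * a + N ≤ w s := by
  have hv0 : ∀ f, 0 ≤ v f := by
    intro f
    have h1 := hv.nonneg (HM.deg f) f (HM.deg_mem f) (HM.ne f)
    rwa [vR_coe] at h1
  obtain ⟨w, hw, hvw, hwX⟩ := exists_val D hv0 hc X hX hα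
  refine ⟨w, hw, ?_⟩
  intro a δ N s u hu hdec hgap hN
  have hW : HVal C.A (vR w) := hval_of_sat hS hw
  have h1 : Ideal.span (Set.range fun i => (X i : C.R)) ≤ hW.rval.b 1 := by
    rw [Ideal.span_le]
    rintro _ ⟨i, rfl⟩
    exact (mem_b_coe hW 1 (X i)).2 (hwX i)
  have h2 : Ideal.span (Set.range fun i => (X i : C.R)) ^ N ≤ hW.rval.b N := by
    have := b_pow_le hW.rval 1 N
    rw [mul_one] at this
    exact (Ideal.pow_right_mono h1 N).trans this
  have h3 : Ideal.span (Set.range fun i => (X i : C.R)) ^ N * hv.rval.b a ⊔ hv.rval.bgt a ≤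
      hW.rval.b (α * a + N) := by
    refine sup_le ?_ ?_
    · refine (Ideal.mul_mono h2 (b_le_b hv hW hα hvw)).trans ?_
      rw [add_comm]
      exact b_mul_le _ _ _
    · refine (bgt_le_b hv hgap).trans ((b_le_b hv hW hα hvw).trans (hW.rval.b_antitone ?_))
      rw [mul_add]
      linarith
  have h4 : (u : C.R) ∉ hW.rval.P := by
    intro h
    have h5 := (mem_P_coe hW u).1 h
    rw [hw.eq_zero hu] at h5
    exact lt_irrefl _ h5
  exact (mem_b_coe hW _ s).1 (hW.rval.mem_b_of_mul h4 (h3 hdec))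

end Vale.Agent.P271.K3
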