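import Vale.Agent.P271.Zorn.Abs

/-!
# P271 / K3T: the upper bound at a general point, by one application of ZORN

`D` = exponent sets at the point `z'`, `w` a weight function of threshold `≤ c` at `z'` (CEN), `x_i`
functions vanishing at `z'`.  There is a valuation `v` with threshold `≤ α c + d` at `z'`,
`v ≥ α w` and `v (x_i) ≥ 1`.
-/

set_option linter.all false

namespace Vale.Agent.P271.K3

open Vale.Agent.P271.Zorn Finsupp

variable {H : Type*}

open Classical in
/-- the weight `max (α w) 1_{x_i}` -/
noncomputable def up (w : H → ℝ) (α : ℝ) {d : ℕ} (x : Fin d → H) (f : H) : ℝ :=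
  max (α * w f) (if f ∈ Set.range x then 1 else 0)

theorem le_up (w : H → ℝ) (α : ℝ) {d : ℕ} (x : Fin d → H) (f : H) : α * w f ≤ up w α x f :=
  le_max_left _ _

theorem one_le_up (w : H → ℝ) (α : ℝ) {d : ℕ} (x : Fin d → H) (i : Fin d) :
    1 ≤ up w α x (x i) := by
  unfold up
  rw [if_pos ⟨i, rfl⟩]
  exact le_max_right _ _

theorem up_nonneg {w : H → ℝ} {α : ℝ} {d : ℕ} {x : Fin d → H} (f : H) : 0 ≤ up w α x f := by
  refine le_trans ?_ (le_max_right _ _)
  split_ifs <;> norm_num

variable [CommMonoid H]

theorem Le_up (D : Dat H) {w : H → ℝ} (hw : ∀ f, 0 ≤ w f) {c : ℝ} (hc : D.Le w c) {d : ℕ}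
    (x : Fin d → H) (hx : ∀ i (κ : ℝ), single (x i) κ ∈ D.P → κ ≤ 1) {α : ℝ} (hα : 0 ≤ α) :
    D.Le (up w α x) (α * c + d) := by
  classical
  intro k hk hk0
  have h1 : ∀ f, up w α x f ≤ α * w f + (if f ∈ Finset.univ.image x then 1 else 0) := by
    intro f
    unfold up
    have h2 : 0 ≤ α * w f := mul_nonneg hα (hw f)
    by_cases hf : f ∈ Set.range x
    · have hf' : f ∈ Finset.univ.image x := by
        obtain ⟨i, rfl⟩ := hf
        exact Finset.mem_image_of_mem _ (Finset.mem_univ i)
      rw [if_pos hf, if_pos hf']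
      exact max_le (by linarith) (by linarith)
    · have hf' : f ∉ Finset.univ.image x := by
        intro h
        obtain ⟨i, -, rfl⟩ := Finset.mem_image.1 h
        exact hf ⟨i, rfl⟩
      rw [if_neg hf, if_neg hf']
      exact max_le (by linarith) (by linarith)
  calc pair k (up w α x) ≤ pair k (fun f => α * w f + (if f ∈ Finset.univ.image x then 1 else 0)) :=
        pair_mono k hk0 fun f _ => h1 f
    _ = α * pair k w + ∑ f ∈ k.support, k f * (if f ∈ Finset.univ.image x then 1 else 0) := by
        rw [pair_def, pair_def, Finset.mul_sum, ← Finset.sum_add_distrib]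
        exact Finset.sum_congr rfl fun f _ => by ring
    _ ≤ α * c + d := by
        refine add_le_add (mul_le_mul_of_nonneg_left (hc k hk hk0) hα) ?_
        calc ∑ f ∈ k.support, k f * (if f ∈ Finset.univ.image x then (1 : ℝ) else 0)
            ≤ ∑ f ∈ k.support, (if f ∈ Finset.univ.image x then (1 : ℝ) else 0) := by
              refine Finset.sum_le_sum fun f _ => ?_
              by_cases hf : f ∈ Finset.univ.image x
              · rw [if_pos hf, mul_one]
                obtain ⟨i, -, rfl⟩ := Finset.mem_image.1 hf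
                refine hx i _ (D.down k hk _ fun g => ?_)
                by_cases hg : g = x i
                · rw [hg, single_eq_same]
                · rw [single_eq_of_ne hg]
                  exact hk0 g
              · rw [if_neg hf, mul_zero]
          _ = ((k.support.filter fun f => f ∈ Finset.univ.image x).card : ℝ) := by
              rw [← Finset.sum_filter, Finset.sum_const, nsmul_eq_mul, mul_one]
          _ ≤ ((Finset.univ.image x).card : ℝ) := by
              refine Nat.cast_le.2 (Finset.card_le_card fun f hf => (Finset.mem_filter.1 hf).2)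
          _ ≤ d := by
              refine (Nat.cast_le.2 Finset.card_image_le).trans ?_
              rw [Finset.card_univ, Fintype.card_fin]

/-- The valuation at the general point. -/
theorem exists_val (D : Dat H) {w : H → ℝ} (hw : ∀ f, 0 ≤ w f) {c : ℝ} (hc : D.Le w c) {d : ℕ}
    (x : Fin d → H) (hx : ∀ i (κ : ℝ), single (x i) κ ∈ D.P → κ ≤ 1) {α : ℝ} (hα : 0 ≤ α) :
    ∃ v : H → ℝ, D.Sat v (α * c + d) ∧ (∀ f, α * w f ≤ v f) ∧ ∀ i, 1 ≤ v (x i) := by
  obtain ⟨v, hv, hs⟩ := D.exists_sat (up w α x) (fun f => up_nonneg f) (Le_up D hw hc x hx hα)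
  exact ⟨v, hs, fun f => (le_up w α x f).trans (hv f), fun i => (one_le_up w α x i).trans (hv _)⟩

end Vale.Agent.P271.K3
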