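import Vale.Agent.P271.H783.KL
import Vale.Agent.P271.H207.GrTrunc

/-!
# P271 / K3T: the upper bound for the truncated refinement at general points, and its limit

`F` = restriction to `C.A m` of the valuation `v` with centre `P`; at a general point `z'` of
`Z(P)`: coordinates `Θ` of the graded pieces of `F`; `lexT` = truncated lexicographic refinement of
`α F` by the orders of vanishing at `z'`.
-/

set_option linter.all false

open Filter Topology

namespace Vale.Agent.P271.K3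

open Module Vale.Agent.P271.Zorn Vale.Agent.P271.Sch Vale.Agent.P271.Inst Vale.Agent.P271.H84
  Vale.Agent.P271.Filt Vale.Agent.P271.Filt.Wt Vale.Agent.P271.H207 Vale.Agent.P271.F507 Finsupp

section order

variable {K : Type*} [Field K] {V : Type*} [AddCommGroup V] [Module K V] {d : ℕ} {F : Wt K V}
  {Θ : GrData F d}

/-- the order of the coordinates is at least the degree of the leading index -/
theorem le_order_of_isLd {x : V} {a : ℝ} {γ : Fin (Θ.r a) × (Fin d → ℕ)} (h : Θ.IsLd x a γ)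
    (hx : x ∈ F.sub a) (y : Fin (Θ.r a)) : ((deg γ.2 : ℕ) : ℕ∞) ≤ (Θ.θ a ⟨x, hx⟩ y).order := by
  obtain ⟨h1, h2⟩ := h
  refine MvPowerSeries.le_order fun e he => ?_
  by_contra hne
  have h3 : cf (Θ.θ a ⟨x, hx⟩) (y, Finsupp.equivFunOnFinite e) ≠ 0 := by
    unfold cf
    simpa using hne
  have h4 := h2.2 _ h3
  rw [key_le_iff] at h4
  have h5 : deg γ.2 ≤ deg (Finsupp.equivFunOnFinite e : Fin d → ℕ) := by
    rcases h4 with h | h
    · exact h.le
    · exact h.1.le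
  have h6 : deg (Finsupp.equivFunOnFinite e : Fin d → ℕ) = e.degree := by
    rw [Finsupp.degree_eq_sum]
    rfl
  rw [h6] at h5
  exact absurd he (not_lt.2 (by exact_mod_cast h5))

end order

variable {n : ℕ} {C : GCone n} {m : ℕ}

/-- The data at a general point of the centre of the valuation `v`. -/
structure PtData (D : Dat (HM C)) {v : HM C → ℝ} (hv : HVal C.A (vR v)) (m d : ℕ)
    (X : Fin d → HM C) (Θ : GrData (hv.rval.wt (C.A m)) d) : Prop where
  /-- the local parameters vanish at the point -/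
  vanish : ∀ i (κ : ℝ), single (X i) κ ∈ D.P → κ ≤ 1
  /-- sections of order at least `N` -/
  dec : ∀ (x : C.A m) (hx : x ≠ 0) (N : ℕ),
    (∀ y, (N : ℕ∞) ≤ (Θ.θ (v (hm x hx)) ⟨x, by
      intro _; rw [wt_mk hv x hx]; exact le_rfl⟩ y).order) →
    ∃ u : HM C, (∀ t : ℝ, single u t ∈ D.P) ∧
      (u * x : C.R) ∈ Ideal.span (Set.range fun i => (X i : C.R)) ^ N *
        hv.rval.b (v (hm x hx)) ⊔ hv.rval.bgt (v (hm x hx))

theorem wt_hm {v : HM C → ℝ} (hv : HVal C.A (vR v)) (x : C.A m) (hx : x ≠ 0) :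
    (hv.rval.wt (C.A m)).w x = v (hm x hx) := wt_mk hv x hx

/-- the refinement is strict -/
theorem strict_of_delta {v : HM C → ℝ} (hv : HVal C.A (vR v)) {d : ℕ}
    (Θ : GrData (hv.rval.wt (C.A m)) d) {α δ : ℝ} (hα : 0 ≤ α) {E : ℕ}
    (hδ : ∀ f g : HM C, (f : C.R) ∈ C.A m → v f < v g → v f + δ ≤ v g) (hE : (E : ℝ) < α * δ) :
    LexStrict (hv.rval.wt (C.A m)) (Θ.hT E) α := by
  refine Θ.strict_of_gap fun x y hx hy hlt => ?_
  rw [wt_hm hv x hx, wt_hm hv y hy] at hlt ⊢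
  have h1 := hδ (hm x hx) (hm y hy) x.2 hlt
  have h2 : α * δ ≤ α * (v (hm y hy) - v (hm x hx)) :=
    mul_le_mul_of_nonneg_left (by linarith) hα
  linarith

/-- **The upper bound for the truncated refinement at a general point.** -/
theorem wle_lexT {D : Dat (HM C)} (hS : ∀ f g s : HM C, SumRel f g s → D.Sum f g s)
    {v : HM C → ℝ} (hv : HVal C.A (vR v)) {c : ℝ} (hc : D.Le v c) {d : ℕ} {X : Fin d → HM C}
    [FiniteDimensional ℂ (C.A m)] {Θ : GrData (hv.rval.wt (C.A m)) d} (hP : PtData D hv m d X Θ)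
    {α δ : ℝ} (hα : 0 ≤ α) {E : ℕ}
    (hδ : ∀ f g : HM C, (f : C.R) ∈ C.A m → v f < v g → v f + δ ≤ v g) (hE : (E : ℝ) < α * δ)
    (hs : LexStrict (hv.rval.wt (C.A m)) (Θ.hT E) α) :
    WLe D (Θ.lexT hs) (α * c + d) := by
  obtain ⟨w, hw, hdec⟩ := k3_point hS hv hc X hP.vanish hα
  refine WLe.of_le hw.le hw.nonneg fun x hx => ?_
  obtain ⟨γ, hγ⟩ := Θ.exists_isLd hx
  have hwx := wt_hm hv x hx
  rw [Θ.lexT_w, hγ.hT_eq]
  have key : ∀ (a : ℝ) (ha : a = v (hm x hx)) (γ : Fin (Θ.r a) × (Fin d → ℕ)), Θ.IsLd x a γ →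
      α * a + ((min (deg γ.2) E : ℕ) : ℝ) ≤ w (hm x hx) := by
    intro a ha γ hγ
    subst ha
    obtain ⟨u, hu, hu2⟩ := hP.dec x hx (min (deg γ.2) E) (fun y => by
      refine le_trans ?_ (le_order_of_isLd hγ _ y)
      exact_mod_cast min_le_left _ _)
    refine hdec (v (hm x hx)) δ (min (deg γ.2) E) (hm x hx) u hu hu2
      (fun f hf => hδ (hm x hx) f x.2 hf) ?_
    have : ((min (deg γ.2) E : ℕ) : ℝ) ≤ E := by exact_mod_cast min_le_right _ _
    linarith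
  exact key _ hwx γ hγ

/-- the finite set of the weights of the refinements -/
theorem exists_finset_lexT {v : HM C → ℝ} (hv : HVal C.A (vR v)) [FiniteDimensional ℂ (C.A m)]
    (α : ℝ) (E : ℕ) : ∃ T : Finset ℝ, ∀ (d : ℕ) (Θ : GrData (hv.rval.wt (C.A m)) d)
      (hs : LexStrict (hv.rval.wt (C.A m)) (Θ.hT E) α) (x : C.A m), x ≠ 0 →
      (Θ.lexT hs).w x ∈ T := by
  classical
  set F := hv.rval.wt (C.A m) with hF
  refine ⟨(F.finite_values.toFinset ×ˢ Finset.range (E + 1)).image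
    (fun p => α * p.1 + (p.2 : ℝ)), fun d Θ hs x hx => ?_⟩
  obtain ⟨γ, hγ⟩ := Θ.exists_isLd hx
  rw [Θ.lexT_w, hγ.hT_eq, Finset.mem_image]
  refine ⟨(F.w x, min (deg γ.2) E), Finset.mem_product.2 ⟨?_, ?_⟩, rfl⟩
  · rw [Set.Finite.mem_toFinset]
    exact ⟨x, hx, rfl⟩
  · rw [Finset.mem_range]
    exact Nat.lt_succ_of_le (min_le_right _ _)

/-- **K3T.** `D'` at the point `z`, `D k` at general points `z_k → z` of the centre of `v`: the
truncated refinements have a limit `ofBasis b' lam` on `C.A m` with threshold `≤ α c + d` at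
`z` and with the same sorted weights `lam` as the refinements at (a subsequence of) the points. -/
theorem k3t (D' : Dat (HM C)) (hS' : ∀ f g s : HM C, SumRel f g s → D'.Sum f g s)
    (D : ℕ → Dat (HM C)) (hS : ∀ k, ∀ f g s : HM C, SumRel f g s → (D k).Sum f g s)
    (hlsc : ∀ ψ : ℕ → ℕ, StrictMono ψ → Lsc (fun k => D (ψ k)) D' m)
    {v : HM C → ℝ} (hv : HVal C.A (vR v)) {c : ℝ} (hc : ∀ k, (D k).Le v c)
    [FiniteDimensional ℂ (C.A m)] {d : ℕ} (X : ℕ → Fin d → HM C)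
    (Θ : ℕ → GrData (hv.rval.wt (C.A m)) d) (hP : ∀ k, PtData (D k) hv m d (X k) (Θ k))
    {α δ : ℝ} (hα : 0 ≤ α) {E : ℕ}
    (hδ : ∀ f g : HM C, (f : C.R) ∈ C.A m → v f < v g → v f + δ ≤ v g) (hE : (E : ℝ) < α * δ)
    (hs : ∀ k, LexStrict (hv.rval.wt (C.A m)) ((Θ k).hT E) α) :
    ∃ (φ : ℕ → ℕ) (b : ℕ → Basis (Fin (finrank ℂ (C.A m))) ℂ (C.A m))
      (b' : Basis (Fin (finrank ℂ (C.A m))) ℂ (C.A m)) (lam : Fin (finrank ℂ (C.A m)) → ℝ),
      StrictMono φ ∧ Antitone lam ∧ (∀ i, 0 ≤ lam i) ∧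
      (∀ k, ((Θ (φ k)).lexT (hs (φ k))).Adapted (b k)) ∧
      (∀ k i, ((Θ (φ k)).lexT (hs (φ k))).w (b k i) = lam i) ∧
      (∀ (f : C.A m →ₗ[ℂ] ℂ) (i), Tendsto (fun k => f (b k i)) atTop (𝓝 (f (b' i)))) ∧
      (∀ (a : ℝ) (W : Submodule ℂ (C.A m)),
        (∀ k, ((Θ (φ k)).lexT (hs (φ k))).sub a = W) → (ofBasis b' lam).sub a = W) ∧
      (∀ (k : ℕ) (a : ℝ), (ofBasis b' lam).TQ ((ofBasis b' lam).sub a)
        = ((Θ (φ k)).lexT (hs (φ k))).TQ (((Θ (φ k)).lexT (hs (φ k))).sub a)) ∧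
      WLe D' (ofBasis b' lam) (α * c + d) := by
  obtain ⟨T, hT⟩ := exists_finset_lexT (m := m) hv α E
  refine exists_limit_WLe D D' hS' hlsc (fun k => (Θ k).lexT (hs k)) T
    (fun k x hx => hT d (Θ k) (hs k) x hx) (fun k x hx => ?_)
    (fun k => wle_lexT (hS k) hv (hc k) (hP k) hα hδ hE (hs k))
  rw [(Θ k).lexT_w]
  refine add_nonneg (mul_nonneg hα ?_) ((Θ k).hT_nonneg E x)
  rw [wt_hm hv x hx]
  have h1 := hv.nonneg (HM.deg (hm x hx)) (hm x hx) (HM.deg_mem _) (HM.ne _)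
  rwa [vR_coe] at h1

end Vale.Agent.P271.K3
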