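import Vale.Agent.P271.H783.Exp

/-!
# P271 / K3T : the upper bound `c_{z'}(G_{z'}) ≤ α c + d` (helper783)

`f` (weights `μ`) generators with exponent at most `c` at the point, `x_1..x_d` functions vanishing
at the point. Every family `b` with weights `αλ_i + e_i`, such that a multiple `u b_i` by a function
`u` with `u(z') ≠ 0` lies in `(x)^{e_i} J(λ_i) + J(δ) J(λ_i) + J(λ_i + δ)`, has exponent at most
`α c + d` (for `α δ ≥ e_i`).
-/

namespace Vale.Agent.P271.K3

open Module Filter Topology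
open scoped ENNReal

namespace ExpTheory

variable {R : Type*} [CommRing R] [Algebra ℂ R] {X : Type*} [TopologicalSpace X]
  {Θ : ExpTheory R X} {z : X}

section Fam

variable {κ : Type} (f : κ → R) (μ : κ → ℝ) {d : ℕ} (x : Fin d → R) (α : ℝ)

/-- the family `f ∪ x` -/
def fam : κ ⊕ Fin d → R := Sum.elim f x

/-- the weights `(α μ, 1)` on the family `f ∪ x` -/
def wts : κ ⊕ Fin d → ℝ := Sum.elim (fun k => α * μ k) (fun _ => 1)

/-- the ideal generated by the members of the family of weight at least `a` -/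
def J (a : ℝ) : Ideal R := Ideal.span {g | ∃ k, a ≤ μ k ∧ f k = g}

variable {f μ x α}

theorem wts_nonneg (hα : 0 ≤ α) (hμ : ∀ k, 0 ≤ μ k) : ∀ i, 0 ≤ wts (d := d) μ α i := by
  rintro (k | j)
  · exact mul_nonneg hα (hμ k)
  · exact zero_le_one

/-- **Upper bound, first half.** -/
theorem c_fam_le [Fintype κ] (hα : 0 ≤ α) (hμ : ∀ k, 0 ≤ μ k) (hx : ∀ j, Θ.ev z (x j) = 0) :
    Θ.c z (fam f x) (wts μ α) ≤ ENNReal.ofReal α * Θ.c z f μ + d := by
  classical
  have h1 := Θ.fact1 z (fam f x) (Sum.elim μ (fun _ => 0)) (Sum.elim (fun _ => 0) (fun _ => 1)) α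
    (by rintro (k | j); exacts [hμ k, le_rfl]) (by rintro (k | j); exacts [le_rfl, zero_le_one]) hα
  have h2 : (fun i => α * (Sum.elim μ (fun _ => 0) : κ ⊕ Fin d → ℝ) i
      + (Sum.elim (fun _ => 0) (fun _ => 1) : κ ⊕ Fin d → ℝ) i) = wts μ α := by
    funext i
    rcases i with k | j <;> simp [wts]
  rw [h2] at h1
  refine h1.trans (add_le_add (mul_le_mul_right (?_ : Θ.c z (fam f x)
    (Sum.elim μ (fun _ => 0)) ≤ Θ.c z f μ) _) ?_)
  · refine c_le_of_bd hμ (by rintro (k | j); exacts [hμ k, le_rfl]) ?_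
    rintro (k | j) hj
    · exact self_mem_bd k (hμ k)
    · exact absurd hj (lt_irrefl _)
  · have h3 : (Sum.elim (fun _ => 0) (fun _ => 1) : κ ⊕ Fin d → ℝ)
        = fun i => ∑ k : Fin d, (Sum.elim (fun _ => 0) (fun j => if j = k then 1 else 0) :
            κ ⊕ Fin d → ℝ) i := by
      funext i
      rcases i with k | j <;> simp
    rw [h3]
    refine (c_sum_le Finset.univ _ ?_).trans ?_
    · rintro k (i | j)
      · exact le_rfl
      · simp only [Sum.elim_inr]; split_ifs <;> norm_num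
    · calc ∑ k : Fin d, Θ.c z (fam f x) (Sum.elim (fun _ => 0) (fun j => if j = k then 1 else 0))
          ≤ ∑ k : Fin d, (1 : ℝ≥0∞) := by
            refine Finset.sum_le_sum fun k _ => ?_
            refine le_trans ?_ (Θ.single z (x k) (hx k))
            refine c_le_of_bd (fun _ => zero_le_one) ?_ ?_
            · rintro (i | j)
              · exact le_rfl
              · simp only [Sum.elim_inr]; split_ifs <;> norm_num
            · rintro (i | j) hj
              · exact absurd hj (lt_irrefl _)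
              · simp only [Sum.elim_inr, fam] at hj ⊢
                split_ifs at hj ⊢ with hjk
                · rw [hjk]
                  exact self_mem_bd (b := fun _ : Unit => x k) (l := fun _ => (1 : ℝ)) ()
                    zero_le_one
                · exact absurd hj (lt_irrefl _)
        _ = d := by simp

theorem J_le_bd (hα : 0 ≤ α) (hμ : ∀ k, 0 ≤ μ k) (a : ℝ) :
    J f μ a ≤ Θ.bd z (fam f x) (wts μ α) (α * a) := by
  rw [J, Ideal.span_le]
  rintro _ ⟨k, hk, rfl⟩
  exact bd_antitone (mul_le_mul_of_nonneg_left hk hα)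
    (self_mem_bd (Θ := Θ) (x := z) (b := fam f x) (l := wts μ α) (Sum.inl k)
      (wts_nonneg hα hμ _))

theorem x_le_bd :
    Ideal.span (Set.range x) ≤ Θ.bd z (fam f x) (wts μ α) 1 := by
  rw [Ideal.span_le]
  rintro _ ⟨j, rfl⟩
  exact self_mem_bd (Θ := Θ) (x := z) (b := fam f x) (l := wts μ α) (Sum.inr j) zero_le_one

/-- **Upper bound, second half**: the estimate of one element. -/
theorem mem_bd_of_decomp (hα : 0 ≤ α) (hμ : ∀ k, 0 ≤ μ k) {δ lam : ℝ} {e : ℕ} (he : e ≤ α * δ)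
    {s u : R} (hu : Θ.ev z u ≠ 0)
    (h : u * s ∈ (Ideal.span (Set.range x)) ^ e * J f μ lam ⊔ J f μ δ * J f μ lam
      ⊔ J f μ (lam + δ)) :
    s ∈ Θ.bd z (fam f x) (wts μ α) (α * lam + e) := by
  refine mem_bd_of_mul hu ?_
  refine (sup_le (sup_le ?_ ?_) ?_ : _ ≤ Θ.bd z (fam f x) (wts μ α) (α * lam + e)) h
  · have h1 : (Ideal.span (Set.range x)) ^ e ≤ Θ.bd z (fam f x) (wts μ α) e :=
      (Ideal.pow_right_mono (x_le_bd (Θ := Θ) (z := z) (f := f) (μ := μ) (α := α)) e).trans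
        (pow_bd_le e)
    refine (Ideal.mul_mono h1 (J_le_bd (Θ := Θ) (z := z) (x := x) hα hμ lam)).trans ?_
    refine bd_mul_le.trans ?_
    rw [add_comm]
  · refine (Ideal.mul_mono (J_le_bd (Θ := Θ) (z := z) (x := x) hα hμ δ)
      (J_le_bd (Θ := Θ) (z := z) (x := x) hα hμ lam)).trans ?_
    refine bd_mul_le.trans (bd_antitone ?_)
    linarith
  · refine (J_le_bd (Θ := Θ) (z := z) (x := x) hα hμ (lam + δ)).trans (bd_antitone ?_)
    linarith

/-- **The upper bound of (K3)** at the point `z'`. -/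
theorem upper [Fintype κ] (hα : 0 ≤ α) (hμ : ∀ k, 0 ≤ μ k) (hx : ∀ j, Θ.ev z (x j) = 0)
    {ι : Type} [Fintype ι] {b : ι → R} {lam : ι → ℝ} {e : ι → ℕ} (hlam : ∀ i, 0 ≤ lam i)
    {δ : ℝ} (he : ∀ i, e i ≤ α * δ)
    (h : ∀ i, ∃ u : R, Θ.ev z u ≠ 0 ∧ u * b i ∈ (Ideal.span (Set.range x)) ^ e i *
      J f μ (lam i) ⊔ J f μ δ * J f μ (lam i) ⊔ J f μ (lam i + δ)) :
    Θ.c z b (fun i => α * lam i + e i) ≤ ENNReal.ofReal α * Θ.c z f μ + d := by
  refine (c_le_of_bd (b := fam f x) (l := wts μ α) (wts_nonneg hα hμ)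
    (fun i => by have := hlam i; positivity) fun i _ => ?_).trans (c_fam_le hα hμ hx)
  obtain ⟨u, hu, hmem⟩ := h i
  exact mem_bd_of_decomp hα hμ (he i) hu hmem

end Fam

end ExpTheory

end Vale.Agent.P271.K3
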